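import Crest.Agent.N111.Eng.Equi
import Crest.Agent.N111.Lat.Ind

/-!
# Row 111, engine III: asymptotic invariance propagates from `SL₂` to `SL₃(ℝ)`.
-/

set_option autoImplicit false

namespace Crest.Agent.N111.Eng

open MeasureTheory Filter Topology
open scoped ENNReal InnerProductSpace Pointwise

variable {K : Type*} [NormedAddCommGroup K] [InnerProductSpace ℂ K]

/-- `(V g ξ)(x) = ξ (g • x)` -/
noncomputable def V (g : G) : L2X K →L[ℂ] L2X K := ind (URep.triv Γ K) g⁻¹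

lemma V_coeFn (g : G) (ξ : L2X K) : V g ξ =ᵐ[μ] fun x => ξ (g • x) := by
  simpa [V] using ind_coeFn (URep.triv Γ K) g⁻¹ ξ

lemma V_mul (g h : G) (ξ : L2X K) : V (g * h) ξ = V h (V g ξ) := by
  rw [V, mul_inv_rev, URep.mul_apply]; rfl

@[simp] lemma V_one (ξ : L2X K) : V 1 ξ = ξ := by simp [V]

@[simp] lemma norm_V (g : G) (ξ : L2X K) : ‖V g ξ‖ = ‖ξ‖ := URep.norm_map _ _ _

@[simp] lemma inner_V (g : G) (ξ η : L2X K) : ⟪V g ξ, V g η⟫_ℂ = ⟪ξ, η⟫_ℂ :=
  URep.inner_map_map _ _ _ _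

lemma continuous_V (ξ : L2X K) : Continuous fun g => V g ξ :=
  (ind_cont (URep.triv Γ K) ξ).comp continuous_inv

/-- the twisting field `x ↦ B (coc g x)` -/
noncomputable def Tw (B : Γ → K →L[ℂ] K) (g : G) : L2X K →L[ℂ] L2X K :=
  fld μ fun x => B (coc g x)

lemma Tw_coeFn {B : Γ → K →L[ℂ] K} (hB : ∀ γ, ‖B γ‖ ≤ 1) (g : G) (ξ : L2X K) :
    Tw B g ξ =ᵐ[μ] fun x => B (coc g x) (ξ x) := (isFld_coc B hB g).coeFn ξ

lemma norm_Tw_le {B : Γ → K →L[ℂ] K} (hB : ∀ γ, ‖B γ‖ ≤ 1) (g : G) : ‖Tw B g‖ ≤ 1 :=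
  norm_fld_le zero_le_one (Eventually.of_forall fun _ => hB _)

/-- the defect of invariance -/
noncomputable def df (B : Γ → K →L[ℂ] K) (ξ : L2X K) (g : G) : ℝ := ‖V g ξ - Tw B g ξ‖

lemma df_coeFn {B : Γ → K →L[ℂ] K} (hB : ∀ γ, ‖B γ‖ ≤ 1) (ξ : L2X K) (g : G) :
    (V g ξ - Tw B g ξ : L2X K) =ᵐ[μ] fun x => ξ (g • x) - B (coc g x) (ξ x) := by
  filter_upwards [Lp.coeFn_sub (V g ξ) (Tw B g ξ), V_coeFn g ξ, Tw_coeFn hB g ξ] with x h1 h2 h3
  rw [h1, Pi.sub_apply, h2, h3]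

lemma df_sq {B : Γ → K →L[ℂ] K} (hB : ∀ γ, ‖B γ‖ ≤ 1) (ξ : L2X K) (g : G) :
    df B ξ g ^ 2 = ∫ x, ‖ξ (g • x) - B (coc g x) (ξ x)‖ ^ 2 ∂μ := by
  rw [df, norm_sq_eq_integral]
  exact integral_congr_ae ((df_coeFn hB ξ g).mono fun x hx => by simp only [hx])

omit [InnerProductSpace ℂ K] in
lemma norm_le_one {ξ : L2X K} (hξ : ∀ᵐ x ∂μ, ‖ξ x‖ ≤ 1) : ‖ξ‖ ≤ 1 := by
  refine (pow_le_one_iff_of_nonneg (norm_nonneg _) two_ne_zero).1 ?_
  rw [norm_sq_eq_integral]
  refine (integral_mono_ae (integrable_norm_sq ξ) (integrable_const (1 : ℝ)) ?_).trans (by simp)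
  filter_upwards [hξ] with x hx using pow_le_one₀ (norm_nonneg _) hx

/-- fields taking countably many values, each of which is asymptotically zero on `ξ` -/
theorem tendsto_fld {κ S : Type*} {l : Filter κ} [Countable S] [MeasurableSpace S]
    [DiscreteMeasurableSpace S] {c : X → S} (hc : Measurable c) {D : κ → S → K →L[ℂ] K} {C : ℝ}
    (hD : ∀ k s, ‖D k s‖ ≤ C) {ξ : κ → L2X K} (hξ : ∀ k, ∀ᵐ x ∂μ, ‖ξ k x‖ ≤ 1)
    (h : ∀ s, Tendsto (fun k => ‖amp (D k s) (ξ k)‖) l (𝓝 0)) :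
    Tendsto (fun k => ‖fld μ (fun x => D k (c x)) (ξ k)‖) l (𝓝 0) := by
  have hA : ∀ s, MeasurableSet (c ⁻¹' {s}) := fun s => hc (MeasurableSet.of_discrete)
  have hd : Pairwise (Function.onFun Disjoint fun s => c ⁻¹' {s}) := fun s t hst =>
    Set.disjoint_left.2 fun x h1 h2 => hst (h1.symm.trans h2)
  have hU : ⋃ s, c ⁻¹' {s} = Set.univ := by ext x; simp
  let a : κ → S → ℝ := fun k s => ∫ x in c ⁻¹' {s}, ‖fld μ (fun x => D k (c x)) (ξ k) x‖ ^ 2 ∂μ
  have e1 : ∀ k, ‖fld μ (fun x => D k (c x)) (ξ k)‖ ^ 2 = ∑' s, a k s := fun k => by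
    rw [norm_sq_eq_integral, ← integral_iUnion hA hd (integrable_norm_sq _).integrableOn, hU,
      Measure.restrict_univ]
  have hf : ∀ k, fld μ (fun x => D k (c x)) (ξ k) =ᵐ[μ] fun x => D k (c x) (ξ k x) := fun k =>
    (IsFld.of_countable hc (D k) (hD k)).coeFn _
  have ha0 : ∀ k s, 0 ≤ a k s := fun k s => integral_nonneg fun x => by positivity
  have e2 : ∀ k s, a k s ≤ ‖amp (D k s) (ξ k)‖ ^ 2 := fun k s => by
    rw [norm_sq_eq_integral]
    refine le_trans (le_of_eq ?_) (setIntegral_le_integral (s := c ⁻¹' {s}) (integrable_norm_sq _)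
      (Eventually.of_forall fun x => by positivity))
    refine setIntegral_congr_ae (hA s) ?_
    filter_upwards [hf k, amp_coeFn (D k s) (ξ k)] with x h1 h2 hx
    rw [h1, h2, show c x = s from hx]
  have e3 : ∀ k s, a k s ≤ μ.real (c ⁻¹' {s}) * C ^ 2 := fun k s => by
    rw [← smul_eq_mul, ← setIntegral_const]
    refine setIntegral_mono_ae (integrable_norm_sq _).integrableOn (integrable_const _).integrableOn ?_
    filter_upwards [hf k, hξ k] with x h1 h2
    rw [h1]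
    refine pow_le_pow_left₀ (norm_nonneg _) (((D k _).le_of_opNorm_le (hD k _) _).trans ?_) 2
    exact mul_le_of_le_one_right ((norm_nonneg _).trans (hD k s)) h2
  have hs : Summable fun s => μ.real (c ⁻¹' {s}) * C ^ 2 := by
    refine Summable.mul_right _ (ENNReal.summable_toReal ?_)
    rw [← measure_iUnion hd hA]; exact measure_ne_top _ _
  have e4 := tendsto_tsum_of_dominated_convergence (𝓕 := l) (f := a) (g := fun _ => 0) hs
    (fun s => squeeze_zero (ha0 · s) (e2 · s) (by simpa using (h s).pow 2))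
    (Eventually.of_forall fun k s => by rw [Real.norm_of_nonneg (ha0 k s)]; exact e3 k s)
  simp only [tsum_zero, ← e1] at e4
  simpa using e4.sqrt

/-- the data of the engine -/
structure EData {κ : Type*} (l : Filter κ) (ξ : κ → L2X K) (B : κ → Γ → K →L[ℂ] K) : Prop where
  bdd : ∀ k, ∀ᵐ x ∂μ, ‖ξ k x‖ ≤ 1
  contr : ∀ k γ, ‖B k γ‖ ≤ 1
  mul : ∀ γ γ', Tendsto (fun k => ‖amp (B k γ * B k γ' - B k (γ * γ')) (ξ k)‖) l (𝓝 0)

variable {κ : Type*} {l : Filter κ} {ξ : κ → L2X K} {B : κ → Γ → K →L[ℂ] K}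

variable (l ξ B) in
/-- `limsup df ≤ ε` -/
def Sm (g : G) (ε : ℝ) : Prop := ∀ ε' > ε, ∀ᶠ k in l, df (B k) (ξ k) g ≤ ε'

variable (l ξ B) in
/-- asymptotic invariance -/
def Inv (g : G) : Prop := Tendsto (fun k => df (B k) (ξ k) g) l (𝓝 0)

lemma inv_iff {g : G} : Inv l ξ B g ↔ ∀ ε > 0, Sm l ξ B g ε := by
  refine ⟨fun h ε hε ε' hε' => h.eventually (ge_mem_nhds (hε.trans hε')), fun h => ?_⟩
  refine tendsto_order.2 ⟨fun a ha => Eventually.of_forall fun k => ha.trans_le (norm_nonneg _),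
    fun a ha => (h (a / 4) (by positivity) (a / 2) (by linarith)).mono fun k hk => by linarith⟩

lemma Inv.sm {g : G} (h : Inv l ξ B g) : Sm l ξ B g 0 := fun _ hε => h.eventually (ge_mem_nhds hε)

theorem EData.sm_mul (hE : EData l ξ B) {g h : G} {ε η : ℝ} (hg : Sm l ξ B g ε)
    (hh : Sm l ξ B h η) : Sm l ξ B (g * h) (ε + η) := by
  intro ε' hε'
  set δ := (ε' - (ε + η)) / 3 with hδ
  have hδ0 : 0 < δ := by rw [hδ]; linarith
  have hD : ∀ k (s : Γ × Γ), ‖B k s.1 * B k s.2 - B k (s.1 * s.2)‖ ≤ 2 := fun k s => by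
    refine (norm_sub_le _ _).trans ?_
    have := (norm_mul_le (B k s.1) (B k s.2)).trans
      (mul_le_one₀ (hE.contr k _) (norm_nonneg _) (hE.contr k _))
    linarith [hE.contr k (s.1 * s.2)]
  have hc : Measurable fun x : X => (coc g (h • x), coc h x) := by fun_prop
  have h3 := tendsto_fld (l := l) hc hD hE.bdd fun s => hE.mul s.1 s.2
  filter_upwards [hg (ε + δ) (by linarith), hh (η + δ) (by linarith),
    h3.eventually (ge_mem_nhds hδ0)] with k h1 h2 h3
  have hF : IsFld μ fun x => B k (coc g (h • x)) := (isFld_coc _ (hE.contr k) g).smul_arg h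
  have e : V (g * h) (ξ k) - Tw (B k) (g * h) (ξ k)
      = V h (V g (ξ k) - Tw (B k) g (ξ k))
        + fld μ (fun x => B k (coc g (h • x))) (V h (ξ k) - Tw (B k) h (ξ k))
        + fld μ (fun x => B k (coc g (h • x)) * B k (coc h x)
          - B k (coc g (h • x) * coc h x)) (ξ k) := by
    refine Lp.ext ?_
    have hadd : ∀ a b c : L2X K, (a + b + c : L2X K) =ᵐ[μ] fun x => a x + b x + c x :=
      fun a b c => by
        filter_upwards [Lp.coeFn_add (a + b) c, Lp.coeFn_add a b] with x h1 h2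
        rw [h1, Pi.add_apply, h2, Pi.add_apply]
    filter_upwards [df_coeFn (hE.contr k) (ξ k) (g * h), hadd _ _ _,
      V_coeFn h (V g (ξ k) - Tw (B k) g (ξ k)), ae_smul h (df_coeFn (hE.contr k) (ξ k) g),
      hF.coeFn (V h (ξ k) - Tw (B k) h (ξ k)), df_coeFn (hE.contr k) (ξ k) h,
      (IsFld.of_countable hc _ (hD k)).coeFn (ξ k)] with x a1 a2 a4 a5 a6 a7 a8
    rw [a1, a2, a4, a5, a6, a7, a8, coc_mul, mul_smul]
    simp
  have h4 : ‖fld μ (fun x => B k (coc g (h • x))) (V h (ξ k) - Tw (B k) h (ξ k))‖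
      ≤ df (B k) (ξ k) h :=
    (ContinuousLinearMap.le_of_opNorm_le _
      (norm_fld_le zero_le_one (Eventually.of_forall fun _ => hE.contr k _)) _).trans_eq (one_mul _)
  have h5 : df (B k) (ξ k) (g * h) ≤ df (B k) (ξ k) g + df (B k) (ξ k) h + δ := by
    rw [df, e]
    refine norm_add₃_le.trans (add_le_add (add_le_add (norm_V _ _).le h4) h3)
  linarith

theorem EData.inv_mul (hE : EData l ξ B) {g h : G} (hg : Inv l ξ B g) (hh : Inv l ξ B h) :
    Inv l ξ B (g * h) :=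
  inv_iff.2 fun ε hε ε' hε' => hE.sm_mul hg.sm hh.sm ε' (by linarith)

lemma tendsto_sqrt_real {α : Type*} {F : Filter α} {A : α → Set X}
    (h : Tendsto (fun a => μ (A a)) F (𝓝 0)) :
    Tendsto (fun a => 2 * √(μ.real (A a))) F (𝓝 0) := by
  simpa [Measure.real] using ((ENNReal.tendsto_toReal ENNReal.zero_ne_top).comp h).sqrt.const_mul 2

/-- two fields that agree off a small set -/
lemma norm_fld_sub_le {c c' : X → Γ} (hc : Measurable c) (hc' : Measurable c')
    {D : Γ → K →L[ℂ] K} (hD : ∀ γ, ‖D γ‖ ≤ 1) {ζ : L2X K} (hζ : ∀ᵐ x ∂μ, ‖ζ x‖ ≤ 1) :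
    ‖fld μ (fun x => D (c x)) ζ - fld μ (fun x => D (c' x)) ζ‖ ≤ 2 * √(μ.real {x | c x ≠ c' x}) := by
  have e : (fld μ (fun x => D (c x)) ζ - fld μ (fun x => D (c' x)) ζ : L2X K)
      =ᵐ[μ] fun x => D (c x) (ζ x) - D (c' x) (ζ x) := by
    filter_upwards [Lp.coeFn_sub (fld μ (fun x => D (c x)) ζ) (fld μ (fun x => D (c' x)) ζ),
      (IsFld.of_countable hc D hD).coeFn ζ, (IsFld.of_countable hc' D hD).coeFn ζ] with x h1 h2 h3
    rw [h1, Pi.sub_apply, h2, h3]
  refine norm_le_of_support _ (measurableSet_eq_fun hc hc').compl (measure_ne_top _ _) zero_le_two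
    ?_ (e.mono fun x hx hx' => by simp only [hx, show c x = c' x from not_not.1 hx', sub_self])
  filter_upwards [e, hζ] with x hx h1
  rw [hx]
  have h2 : ∀ γ, ‖D γ (ζ x)‖ ≤ 1 := fun γ => ((D γ).le_of_opNorm_le (hD γ) _).trans (by simpa)
  linarith [norm_sub_le (D (c x) (ζ x)) (D (c' x) (ζ x)), h2 (c x), h2 (c' x)]

lemma tendsto_coc_smul_ne (h : G) :
    Tendsto (fun u : G => μ {x | coc h (u • x) ≠ coc h x}) (𝓝 1) (𝓝 0) := by
  have h1 := (tendsto_coc_ne h).comp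
    ((by fun_prop : Continuous fun u : G => h * u).tendsto' 1 h (mul_one h))
  have h2 := h1.add tendsto_coc_ne_one
  rw [add_zero] at h2
  refine tendsto_of_tendsto_of_tendsto_of_le_of_le tendsto_const_nhds h2 (fun _ => bot_le)
    fun u => le_trans (measure_mono fun x hx => ?_) (measure_union_le _ _)
  by_contra hx'
  simp only [Set.mem_union, Set.mem_ofPred_eq, not_or, not_not, coc_mul] at hx'
  exact hx (by rw [← hx'.1, hx'.2, mul_one])

variable [CompleteSpace K]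

/-- equicontinuity along a vector group normalised by asymptotically invariant shears -/
theorem EData.sm_small (hE : EData l ξ B) (h1 : Inv l ξ B 1) {u : E2 → G} (hu : Continuous u)
    (hadd : ∀ s t, u (s + t) = u t * u s)
    (hsh : ∀ i j : Fin 2, i ≠ j → ∀ m : ℝ, ∃ h, Inv l ξ B h ∧ ∀ t, h * u t = u (sh i j m t) * h)
    {ε : ℝ} (hε : 0 < ε) : ∀ᶠ t in 𝓝 (0 : E2), Sm l ξ B (u t) ε := by
  have hu0 : u 0 = 1 := by simpa using hadd 0 0
  have hut : Tendsto u (𝓝 0) (𝓝 1) := hu.tendsto' _ _ hu0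
  have hst : ∀ ζ : L2X K, ‖ζ‖ ≤ 1 → Stat (fun t => V (u t) ζ) (fun t => ⟪ζ, V (u t) ζ⟫_ℂ) :=
    fun ζ hζ => ⟨((continuous_V ζ).comp hu).aestronglyMeasurable,
      fun s t => by rw [hadd, V_mul, inner_V], fun s => by rwa [norm_V]⟩
  obtain ⟨δ, hδ, hk⟩ := equi (l := l) (fun k => hst (ξ k) (norm_le_one (hE.bdd k)))
    (fun i j hij m η hη => by
      obtain ⟨h, hh, hc⟩ := hsh i j hij m
      obtain ⟨ρ, hρ, hρ'⟩ := Metric.eventually_nhds_iff.1 ((tendsto_sqrt_real
        ((tendsto_coc_smul_ne h).comp hut)).eventually (ge_mem_nhds (half_pos hη)))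
      refine ⟨ρ, hρ, ?_⟩
      filter_upwards [hh.eventually (ge_mem_nhds (half_pos hη))] with k hk
      refine ⟨fun t => V (u t) (V h (ξ k)), Tw (B k) h, norm_Tw_le (hE.contr k) h, ?_, fun t ht => ?_⟩
      · convert hst (V h (ξ k)) (by rw [norm_V]; exact norm_le_one (hE.bdd k)) using 2 with t
        rw [← V_mul, hc, V_mul, inner_V]
      · have hb : ∀ᵐ x ∂μ, ‖V (u t) (ξ k) x‖ ≤ 1 := by
          filter_upwards [V_coeFn (u t) (ξ k), ae_smul (u t) (hE.bdd k)] with x h1 h2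
          rwa [h1]
        have e : V (u t) (Tw (B k) h (ξ k))
            = fld μ (fun x => B k (coc h (u t • x))) (V (u t) (ξ k)) := by
          refine Lp.ext ?_
          filter_upwards [V_coeFn (u t) (Tw (B k) h (ξ k)),
            ae_smul (u t) (Tw_coeFn (hE.contr k) h (ξ k)),
            ((isFld_coc _ (hE.contr k) h).smul_arg (u t)).coeFn (V (u t) (ξ k)),
            V_coeFn (u t) (ξ k)] with x a1 a2 a3 a4
          rw [a1, a2, a3, a4]
        have a1 := norm_fld_sub_le (c := fun x => coc h (u t • x)) (c' := fun x => coc h x)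
          (by fun_prop) (by fun_prop) (hE.contr k) hb
        have a2 := hρ' (y := t) (by simpa using ht)
        have a3 : ‖V (u t) (V h (ξ k)) - V (u t) (Tw (B k) h (ξ k))‖ = df (B k) (ξ k) h := by
          rw [← map_sub, norm_V, df]
        rw [← e] at a1
        have a4 := norm_sub_le_norm_sub_add_norm_sub (V (u t) (V h (ξ k)))
          (V (u t) (Tw (B k) h (ξ k))) (Tw (B k) h (V (u t) (ξ k)))
        exact a4.trans (by rw [a3]; exact (add_le_add hk (a1.trans a2)).trans_eq (add_halves η)))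
    (half_pos hε)
  filter_upwards [Metric.ball_mem_nhds 0 hδ, (tendsto_sqrt_real
    (tendsto_coc_ne_one.comp hut)).eventually (ge_mem_nhds (half_pos hε))] with t ht ht' ε' hε'
  filter_upwards [hk, h1.eventually (ge_mem_nhds (sub_pos.2 hε'))] with k hk hk1
  have a1 := hk t (mem_ball_zero_iff.1 ht)
  have a2 := norm_fld_sub_le (c := fun x => coc (u t) x) (c' := fun x => coc 1 x)
    (by fun_prop) (by fun_prop) (hE.contr k) (hE.bdd k)
  simp only [hu0, V_one] at a1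
  simp only [df, V_one] at hk1
  have a3 : {x | coc (u t) x ≠ coc 1 x} = {x | coc (u t) x ≠ 1} := by simp
  rw [a3, norm_sub_rev] at a2
  have a4 := norm_sub_le_norm_sub_add_norm_sub (V (u t) (ξ k)) (ξ k) (Tw (B k) (u t) (ξ k))
  have a5 := norm_sub_le_norm_sub_add_norm_sub (ξ k) (Tw (B k) 1 (ξ k)) (Tw (B k) (u t) (ξ k))
  have a6 : ‖Tw (B k) 1 (ξ k) - Tw (B k) (u t) (ξ k)‖ ≤ ε / 2 := a2.trans ht'
  rw [df]
  linarith

lemma exists_small {P : E2 → Prop} (h : ∀ᶠ t in 𝓝 (0 : E2), P t) (i : Fin 2) :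
    ∃ a : ℝ, a ≠ 0 ∧ P (EuclideanSpace.single i a) ∧ P (EuclideanSpace.single i (-a)) := by
  obtain ⟨δ, hδ, h⟩ := Metric.eventually_nhds_iff.1 h
  refine ⟨δ / 2, by positivity, h ?_, h ?_⟩ <;>
    simp [abs_of_pos hδ] <;> linarith

/-- **Propagation of invariance.** -/
theorem EData.inv_all (hE : EData l ξ B)
    (h12 : ∀ b, Inv l ξ B (tv (show (1 : Fin 3) ≠ 2 by decide) b))
    (h21 : ∀ b, Inv l ξ B (tv (show (2 : Fin 3) ≠ 1 by decide) b)) (g : G) : Inv l ξ B g := by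
  have h1 : Inv l ξ B 1 := by simpa using h12 0
  have n01 : (0 : Fin 3) ≠ 1 := by decide
  have n02 : (0 : Fin 3) ≠ 2 := by decide
  have n12 : (1 : Fin 3) ≠ 2 := by decide
  have hp : ∀ ε > 0, ∀ᶠ t in 𝓝 (0 : E2), Sm l ξ B (tv n01 (t 0) * tv n02 (t 1)) ε := by
    intro ε hε
    refine hE.sm_small h1 (u := fun t => tv n01 (t 0) * tv n02 (t 1)) (by fun_prop)
      (fun s t => ?_) (fun i j hij m => ?_) hε
    · ext p q
      simp only [← mul_assoc, mul_tv_apply, tv_apply]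
      fin_cases p <;> fin_cases q <;> simp [add_comm]
    · fin_cases i <;> fin_cases j <;> simp at hij
      · refine ⟨_, h12 (-m), fun t => ?_⟩
        ext p q
        simp only [← mul_assoc, mul_tv_apply, tv_apply, sh_apply]
        fin_cases p <;> fin_cases q <;> simp
      · refine ⟨_, h21 (-m), fun t => ?_⟩
        ext p q
        simp only [← mul_assoc, mul_tv_apply, tv_apply, sh_apply]
        fin_cases p <;> fin_cases q <;> simp
  have hm : ∀ ε > 0, ∀ᶠ t in 𝓝 (0 : E2), Sm l ξ B (tv n01.symm (t 0) * tv n02.symm (t 1)) ε := by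
    intro ε hε
    refine hE.sm_small h1 (u := fun t => tv n01.symm (t 0) * tv n02.symm (t 1)) (by fun_prop)
      (fun s t => ?_) (fun i j hij m => ?_) hε
    · ext p q
      simp only [← mul_assoc, mul_tv_apply, tv_apply]
      fin_cases p <;> fin_cases q <;> simp [add_comm]
    · fin_cases i <;> fin_cases j <;> simp at hij
      · refine ⟨_, h21 m, fun t => ?_⟩
        ext p q
        simp only [← mul_assoc, mul_tv_apply, tv_apply, sh_apply]
        fin_cases p <;> fin_cases q <;> simp [add_comm, mul_comm]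
      · refine ⟨_, h12 m, fun t => ?_⟩
        ext p q
        simp only [← mul_assoc, mul_tv_apply, tv_apply, sh_apply]
        fin_cases p <;> fin_cases q <;> simp [add_comm, mul_comm]
  have left : ∀ {i j k : Fin 3} (hij : i ≠ j) (hjk : j ≠ k) (hik : i ≠ k),
      (∀ ε > 0, ∃ a, a ≠ 0 ∧ Sm l ξ B (tv hij a) ε ∧ Sm l ξ B (tv hij (-a)) ε) →
      (∀ b, Inv l ξ B (tv hjk b)) → ∀ c, Inv l ξ B (tv hik c) := by
    intro i j k hij hjk hik ha hb c
    refine inv_iff.2 fun ε hε => ?_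
    obtain ⟨a, ha0, ha1, ha2⟩ := ha _ (half_pos hε)
    have := hE.sm_mul (hE.sm_mul (hE.sm_mul ha1 (hb (c / a)).sm) ha2) (hb (-(c / a))).sm
    rw [← tv_inv, ← tv_inv, tv_comm hij hjk hik, mul_div_cancel₀ _ ha0] at this
    simpa using this
  have right : ∀ {i j k : Fin 3} (hij : i ≠ j) (hjk : j ≠ k) (hik : i ≠ k),
      (∀ ε > 0, ∃ a, a ≠ 0 ∧ Sm l ξ B (tv hjk a) ε ∧ Sm l ξ B (tv hjk (-a)) ε) →
      (∀ b, Inv l ξ B (tv hij b)) → ∀ c, Inv l ξ B (tv hik c) := by
    intro i j k hij hjk hik ha hb c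
    refine inv_iff.2 fun ε hε => ?_
    obtain ⟨a, ha0, ha1, ha2⟩ := ha _ (half_pos hε)
    have := hE.sm_mul (hE.sm_mul (hE.sm_mul (hb (c / a)).sm ha1) (hb (-(c / a))).sm) ha2
    rw [← tv_inv, ← tv_inv, tv_comm hij hjk hik, div_mul_cancel₀ _ ha0] at this
    simpa using this
  have h02 := left n01 n12 n02 (fun ε hε => by simpa using exists_small (hp ε hε) 0) h12
  have h01 := left n02 n12.symm n01 (fun ε hε => by simpa using exists_small (hp ε hε) 1) h21
  have h10 := right n12 n02.symm n01.symm (fun ε hε => by simpa using exists_small (hm ε hε) 1) h12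
  have h20 := right n12.symm n01.symm n02.symm
    (fun ε hε => by simpa using exists_small (hm ε hε) 0) h21
  refine tv_induction (Inv l ξ B) (fun i j hij b => ?_) (fun _ _ => hE.inv_mul) g
  fin_cases i <;> fin_cases j
  exacts [absurd rfl hij, h01 b, h02 b, h10 b, absurd rfl hij, h12 b, h20 b, h21 b, absurd rfl hij]

omit [CompleteSpace K] in
lemma measurable_defect (ζ : L2X K) (D : Γ → K →L[ℂ] K) {α : Type*} [MeasurableSpace α]
    {y x : α → X} {c : α → Γ} (hy : Measurable y) (hx : Measurable x) (hc : Measurable c) :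
    Measurable fun a => ‖ζ (y a) - D (c a) (ζ (x a))‖ₑ := by
  have h := Lp.stronglyMeasurable ζ
  refine ((h.comp_measurable hy).sub (sm_apply (T := fun a => D (c a)) (fun v => ?_)
    (h.comp_measurable hx))).enorm
  exact (StronglyMeasurable.of_discrete (f := fun γ : Γ => D γ v)).comp_measurable hc

omit [CompleteSpace K] in
lemma lintegral_defect_le {D : Γ → K →L[ℂ] K} (hD : ∀ γ, ‖D γ‖ ≤ 1) (ζ : L2X K) (g : G) :
    ∫⁻ x, ‖ζ (g • x) - D (coc g x) (ζ x)‖ₑ ∂μ ≤ ENNReal.ofReal (df D ζ g) := by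
  rw [df, Lp.norm_def, ENNReal.ofReal_toReal (Lp.eLpNorm_ne_top _),
    eLpNorm_congr_ae (df_coeFn hD ζ g), ← eLpNorm_one_eq_lintegral_enorm]
  exact eLpNorm_le_eLpNorm_of_exponent_le one_le_two
    ((Lp.aestronglyMeasurable _).congr (df_coeFn hD ζ g))

omit [CompleteSpace K] in
lemma enorm_defect_le {D : K →L[ℂ] K} (hD : ‖D‖ ≤ 1) {a b : K} (ha : ‖a‖ ≤ 1) (hb : ‖b‖ ≤ 1) :
    ‖a - D b‖ₑ ≤ 2 := by
  rw [← ofReal_norm, ← ENNReal.ofReal_ofNat]
  refine ENNReal.ofReal_le_ofReal ((norm_sub_le _ _).trans ?_)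
  have := D.le_of_opNorm_le hD b
  linarith

omit [CompleteSpace K] in
lemma lintegral_pair_le {D : Γ → K →L[ℂ] K} (hD : ∀ γ, ‖D γ‖ ≤ 1) {ζ : L2X K}
    (hζ : ∀ᵐ x ∂μ, ‖ζ x‖ ≤ 1) (γ : Γ) {A : Set X} (hA : MeasurableSet A) {L : Set G}
    (hL : MeasurableSet L) (hAL : ∀ x ∈ A, ∀ y ∈ A, sec y * ι γ * (sec x)⁻¹ ∈ L) :
    ∫⁻ x, ∫⁻ y, ‖ζ y - D γ (ζ x)‖ₑ ∂μ ∂μ
      ≤ ∫⁻ g in L, ∫⁻ x, ‖ζ (g • x) - D (coc g x) (ζ x)‖ₑ ∂μ ∂m + 4 * μ Aᶜ := by
  let Φ : G → X → ℝ≥0∞ := fun g x => L.indicator (fun g => ‖ζ (g • x) - D (coc g x) (ζ x)‖ₑ) g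
  have hΦ : Measurable (Function.uncurry Φ) :=
    (measurable_defect ζ D (y := fun p : G × X => p.1 • p.2) (x := Prod.snd)
      (c := fun p => coc p.1 p.2) (by fun_prop) (by fun_prop) (by fun_prop)).indicator
      (measurable_fst hL)
  have e1 : ∫⁻ g in L, ∫⁻ x, ‖ζ (g • x) - D (coc g x) (ζ x)‖ₑ ∂μ ∂m = ∫⁻ x, ∫⁻ g, Φ g x ∂m ∂μ := by
    rw [← lintegral_lintegral_swap hΦ.aemeasurable, ← lintegral_indicator hL]
    refine lintegral_congr fun g => ?_
    by_cases hg : g ∈ L <;> simp [Φ, hg]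
  have e2 : ∀ x, ∫⁻ y, Φ (sec y * ι γ * (sec x)⁻¹) x ∂μ ≤ ∫⁻ g, Φ g x ∂m := fun x => by
    have hx : Measurable fun g => Φ g x := hΦ.of_uncurry_right
    rw [← lintegral_mul_right_eq_self (fun g => Φ g x) (sec x)⁻¹,
      lintegral_unfold (f := fun g => Φ (g * (sec x)⁻¹) x) (hx.comp (measurable_mul_const _))]
    exact lintegral_mono fun y => ENNReal.le_tsum (f := fun δ : Γ => Φ (sec y * ι δ * (sec x)⁻¹) x) γ
  have hi : Measurable (Aᶜ.indicator fun _ : X => (2 : ℝ≥0∞)) := measurable_const.indicator hA.compl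
  have hi' : ∫⁻ x, Aᶜ.indicator (fun _ : X => (2 : ℝ≥0∞)) x ∂μ = 2 * μ Aᶜ :=
    lintegral_indicator_const hA.compl _
  rw [e1, show 4 * μ Aᶜ = ∫⁻ x, Aᶜ.indicator (fun _ : X => (2 : ℝ≥0∞)) x + 2 * μ Aᶜ ∂μ by
    rw [lintegral_add_left hi, hi', lintegral_const, measure_univ]; ring,
    ← lintegral_add_right _ (hi.add_const _)]
  refine lintegral_mono_ae ?_
  filter_upwards [hζ] with x hx
  refine le_trans ?_ (add_le_add (e2 x) le_rfl)
  rw [show Aᶜ.indicator (fun _ : X => (2 : ℝ≥0∞)) x + 2 * μ Aᶜ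
      = ∫⁻ y, Aᶜ.indicator (fun _ : X => (2 : ℝ≥0∞)) y + Aᶜ.indicator (fun _ => 2) x ∂μ by
    rw [lintegral_add_left hi, hi', lintegral_const, measure_univ]; ring,
    ← lintegral_add_right _ (hi.add_const _)]
  refine lintegral_mono_ae ?_
  filter_upwards [hζ] with y hy
  have h2 : ‖ζ y - D γ (ζ x)‖ₑ ≤ 2 := enorm_defect_le (hD γ) hy hx
  by_cases hxA : x ∈ A
  · by_cases hyA : y ∈ A
    · simp [Φ, hAL x hxA y hyA, smul_sec_mul, coc_sec_mul]
    · exact h2.trans (le_add_left (le_add_right (by simp [hyA])))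
  · exact h2.trans (le_add_left (le_add_left (by simp [hxA])))

omit [CompleteSpace K] in
theorem EData.tendsto_pair [l.IsCountablyGenerated] (hE : EData l ξ B) (h : ∀ g, Inv l ξ B g)
    (γ : Γ) : Tendsto (fun k => ∫⁻ x, ∫⁻ y, ‖ξ k y - B k γ (ξ k x)‖ₑ ∂μ ∂μ) l (𝓝 0) := by
  refine ENNReal.tendsto_nhds_zero.2 fun ε hε => ?_
  have hε8 : ε / 8 ≠ 0 := (ENNReal.div_pos hε.ne' (by norm_num)).ne'
  obtain ⟨R, hR⟩ := exists_box hε8
  set L : Set G := box R * {ι γ} * (box R)⁻¹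
  have hL : IsCompact L := ((isCompact_box R).mul isCompact_singleton).mul (isCompact_box R).inv
  have hd := tendsto_lintegral_filter_of_dominated_convergence (μ := m.restrict L) (l := l)
    (F := fun k g => ∫⁻ x, ‖ξ k (g • x) - B k (coc g x) (ξ k x)‖ₑ ∂μ) (f := fun _ => 0)
    (fun _ => 2) (Eventually.of_forall fun k => (measurable_defect (ξ k) (B k)
      (y := fun p : G × X => p.1 • p.2) (x := Prod.snd) (c := fun p => coc p.1 p.2)
      (by fun_prop) (by fun_prop) (by fun_prop)).lintegral_prod_right')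
    (Eventually.of_forall fun k => Eventually.of_forall fun g => by
      refine (lintegral_defect_le (hE.contr k) _ g).trans ?_
      refine (ENNReal.ofReal_le_ofReal ((norm_sub_le _ _).trans ?_)).trans_eq
        (ENNReal.ofReal_ofNat 2)
      have h1 := norm_le_one (hE.bdd k)
      have h2 := (Tw (B k) g).le_of_opNorm_le (norm_Tw_le (hE.contr k) g) (ξ k)
      rw [norm_V]
      linarith)
    (by simpa using ENNReal.mul_ne_top (by norm_num) hL.measure_lt_top.ne)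
    (Eventually.of_forall fun g => tendsto_of_tendsto_of_tendsto_of_le_of_le tendsto_const_nhds
      (by simpa using ENNReal.tendsto_ofReal (h g)) (fun _ => bot_le)
      fun k => lintegral_defect_le (hE.contr k) _ g)
  rw [lintegral_zero] at hd
  filter_upwards [hd.eventually (ge_mem_nhds (ENNReal.half_pos hε.ne'))] with k hk
  refine (lintegral_pair_le (hE.contr k) (hE.bdd k) γ (A := sec ⁻¹' box R)
    (measurable_sec (isCompact_box R).measurableSet) hL.measurableSet fun x hx y hy =>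
      Set.mul_mem_mul (Set.mul_mem_mul hy rfl) (Set.inv_mem_inv.2 hx)).trans ?_
  rw [← ENNReal.add_halves ε]
  refine add_le_add hk ((mul_le_mul_right hR 4).trans_eq ?_)
  rw [show (8 : ℝ≥0∞) = 4 * 2 by norm_num, ← mul_div_assoc,
    ENNReal.mul_div_mul_left _ _ (by norm_num) (by norm_num)]

/-- **ENGINE.**  An asymptotically `SL₂`-invariant field is asymptotically constant and fixed. -/
theorem EData.engine [l.IsCountablyGenerated] (hE : EData l ξ B)
    (h12 : ∀ b, Inv l ξ B (tv (show (1 : Fin 3) ≠ 2 by decide) b))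
    (h21 : ∀ b, Inv l ξ B (tv (show (2 : Fin 3) ≠ 1 by decide) b)) :
    Tendsto (fun k => ‖ξ k - cst K (∫ x, ξ k x ∂μ)‖) l (𝓝 0) ∧
      ∀ γ, Tendsto (fun k => ‖B k γ (∫ x, ξ k x ∂μ) - ∫ x, ξ k x ∂μ‖) l (𝓝 0) := by
  have hi : ∀ k, Integrable (ξ k) μ := fun k => (Lp.memLp (ξ k)).integrable one_le_two
  have key : ∀ γ, Tendsto (fun k => ∫ y, ‖ξ k y - B k γ (∫ x, ξ k x ∂μ)‖ ∂μ) l (𝓝 0) := by
    intro γ
    have h := (ENNReal.tendsto_toReal ENNReal.zero_ne_top).comp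
      (hE.tendsto_pair (hE.inv_all h12 h21) γ)
    refine squeeze_zero (fun k => integral_nonneg fun y => norm_nonneg _) (fun k => ?_) h
    have hm := measurable_defect (ξ k) (B k) (y := (Prod.snd : X × X → X)) (x := Prod.fst)
      (c := fun _ => γ) measurable_snd measurable_fst measurable_const
    rw [Function.comp_apply, lintegral_lintegral_swap hm.aemeasurable,
      integral_norm_eq_lintegral_enorm (f := fun y => ξ k y - B k γ (∫ x, ξ k x ∂μ))
        ((hi k).sub (integrable_const _)).1]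
    refine ENNReal.toReal_mono ?_ (lintegral_mono fun y => ?_)
    · refine ne_top_of_le_ne_top (b := ∫⁻ y, ∫⁻ x, (2 : ℝ≥0∞) ∂μ ∂μ) (by simp) ?_
      refine lintegral_mono_ae ?_
      filter_upwards [hE.bdd k] with y hy
      refine lintegral_mono_ae ?_
      filter_upwards [hE.bdd k] with x hx
      exact enorm_defect_le (hE.contr k γ) hy hx
    · refine le_trans (le_of_eq ?_) (enorm_integral_le_lintegral_enorm _)
      rw [integral_sub (integrable_const _) ((B k γ).integrable_comp (hi k)),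
        (B k γ).integral_comp_comm (hi k)]
      simp
  have hfix : ∀ γ, Tendsto (fun k => ‖B k γ (∫ x, ξ k x ∂μ) - ∫ x, ξ k x ∂μ‖) l (𝓝 0) := by
    intro γ
    refine squeeze_zero (fun k => norm_nonneg _) (fun k => ?_) (key γ)
    refine le_trans (le_of_eq ?_) (norm_integral_le_integral_norm _)
    rw [integral_sub (hi k) (integrable_const _), norm_sub_rev]
    simp
  refine ⟨?_, hfix⟩
  have h2 : Tendsto (fun k => ‖ξ k - cst K (∫ x, ξ k x ∂μ)‖ ^ 2) l (𝓝 0) := by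
    have h3 := ((key 1).add (hfix 1)).const_mul 2
    rw [add_zero, mul_zero] at h3
    refine squeeze_zero (fun k => by positivity) (fun k => ?_) h3
    set v := ∫ x, ξ k x ∂μ
    have hv : ‖v‖ ≤ 1 := by simpa using norm_integral_le_of_norm_le_const (hE.bdd k)
    have hi2 : Integrable (fun y => ‖ξ k y - B k 1 v‖) μ := ((hi k).sub (integrable_const _)).norm
    rw [norm_sq_eq_integral, show ‖B k 1 v - v‖ = ∫ _, ‖B k 1 v - v‖ ∂μ by simp,
      ← integral_add hi2 (integrable_const _), ← integral_const_mul]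
    refine integral_mono_ae (integrable_norm_sq _) ((hi2.add (integrable_const _)).const_mul _) ?_
    filter_upwards [Lp.coeFn_sub (ξ k) (cst K v), cst_coeFn v, hE.bdd k] with x h1 h2 h3
    rw [h1, Pi.sub_apply, h2, sq]
    refine mul_le_mul ((norm_sub_le _ _).trans (by linarith))
      (norm_sub_le_norm_sub_add_norm_sub _ _ _) (norm_nonneg _) zero_le_two
  simpa using h2.sqrt

end Crest.Agent.N111.Eng
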