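import Crest.Agent.N111.Eng.Spec

/-!
# Row 111, engine II: equicontinuity from approximate shear invariance (relative property (T)).
-/

set_option autoImplicit false

namespace Crest.Agent.N111.Eng

open MeasureTheory Filter Topology Metric
open scoped ENNReal NNReal Real

section general
variable {E : Type*} [NormedAddCommGroup E] [InnerProductSpace ℝ E] [FiniteDimensional ℝ E]
  [MeasurableSpace E] [BorelSpace E]
variable {F : Type*} [NormedAddCommGroup F] [InnerProductSpace ℂ F] [CompleteSpace F]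

/-- a stationary bounded function with correlation `φ` -/
structure Stat (Ξ : E → F) (φ : E → ℂ) : Prop where
  meas : AEStronglyMeasurable Ξ volume
  corr : ∀ u t, inner ℂ (Ξ u) (Ξ (u + t)) = φ t
  bdd : ∀ u, ‖Ξ u‖ ≤ 1

lemma stat_one : Stat (fun _ : E => (1 : ℂ)) (fun _ => 1) :=
  ⟨aestronglyMeasurable_const, fun _ _ => by simp, fun _ => by simp⟩

/-- normalised window -/
noncomputable def win (ρ : ℝ) : E → ℝ :=
  (ball (0 : E) ρ).indicator fun _ => (√(volume.real (ball (0 : E) ρ)))⁻¹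

lemma measurable_win (ρ : ℝ) : Measurable (win ρ : E → ℝ) :=
  measurable_const.indicator measurableSet_ball

lemma memLp_win (ρ : ℝ) : MemLp (win ρ : E → ℝ) 2 volume :=
  memLp_indicator_const 2 measurableSet_ball _ (Or.inr measure_ball_lt_top.ne)

lemma integral_win_sq {ρ : ℝ} (hρ : 0 < ρ) : ∫ u : E, win ρ u ^ 2 = 1 := by
  have h0 : 0 < volume.real (ball (0 : E) ρ) :=
    ENNReal.toReal_pos (measure_ball_pos _ _ hρ).ne' measure_ball_lt_top.ne
  have : (fun u : E => win ρ u ^ 2)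
      = (ball (0 : E) ρ).indicator fun _ => (volume.real (ball (0 : E) ρ))⁻¹ := by
    ext u
    by_cases hu : u ∈ ball (0 : E) ρ
    · simp only [win, Set.indicator_of_mem hu, inv_pow, Real.sq_sqrt h0.le]
    · simp [win, Set.indicator_of_notMem hu]
  rw [this, integral_indicator_const _ measurableSet_ball, smul_eq_mul, mul_inv_cancel₀ h0.ne']

omit [CompleteSpace F] in
lemma memLp_win_smul (ρ : ℝ) {Ξ : E → F} {φ : E → ℂ} (h : Stat Ξ φ) :
    MemLp (fun u => (win ρ u : ℂ) • Ξ u) 2 volume := by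
  refine (memLp_win ρ).of_le
    ((Complex.measurable_ofReal.comp (measurable_win ρ)).aestronglyMeasurable.smul h.meas)
    (Eventually.of_forall fun u => ?_)
  rw [norm_smul, Complex.norm_real]
  exact mul_le_of_le_one_right (norm_nonneg _) (h.bdd u)

/-- the windowed function -/
noncomputable def wf (ρ : ℝ) {Ξ : E → F} {φ : E → ℂ} (h : Stat Ξ φ) : L2 E F :=
  (memLp_win_smul ρ h).toLp

omit [CompleteSpace F] in
lemma coeFn_wf (ρ : ℝ) {Ξ : E → F} {φ : E → ℂ} (h : Stat Ξ φ) :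
    wf ρ h =ᵐ[volume] fun u => (win ρ u : ℂ) • Ξ u := (memLp_win_smul ρ h).coeFn_toLp

omit [InnerProductSpace ℂ F] [CompleteSpace F] in
lemma norm_sq_eq_integral {α : Type*} [MeasurableSpace α] {ν : Measure α} (Ψ : Lp F 2 ν) :
    ‖Ψ‖ ^ 2 = ∫ u, ‖Ψ u‖ ^ 2 ∂ν := by
  rw [integral_eq_lintegral_of_nonneg_ae (f := fun z => ‖Ψ z‖ ^ 2)
    (Eventually.of_forall fun z => by positivity) ((Lp.aestronglyMeasurable Ψ).norm.pow 2),
    ← ENNReal.toReal_ofReal (r := ‖Ψ‖ ^ 2) (by positivity), ← lintegral_enorm_sq]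
  congr 2
  ext z
  rw [ENNReal.ofReal_pow (norm_nonneg _), ofReal_norm]

omit [InnerProductSpace ℂ F] [CompleteSpace F] in
lemma norm_sq_le_of_win {ρ : ℝ} (hρ : 0 < ρ) (Ψ : L2 E F) {ε : ℝ}
    (h : ∀ᵐ u, ‖Ψ u‖ ≤ |win ρ u| * ε) : ‖Ψ‖ ^ 2 ≤ ε ^ 2 := by
  rw [norm_sq_eq_integral]
  have h2 : Integrable (fun u : E => win ρ u ^ 2) := (memLp_win ρ).integrable_sq
  calc _ ≤ ∫ u : E, win ρ u ^ 2 * ε ^ 2 := by
        refine integral_mono_ae (integrable_norm_sq Ψ) (h2.mul_const _) ?_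
        filter_upwards [h] with u hu
        calc _ ≤ (|win ρ u| * ε) ^ 2 := pow_le_pow_left₀ (norm_nonneg _) hu 2
          _ = _ := by rw [mul_pow, sq_abs]
    _ = _ := by rw [integral_mul_const, integral_win_sq hρ, one_mul]

/-- the scalar window measure -/
noncomputable def gam (ρ : ℝ) : Measure E := spec (wf ρ stat_one)

lemma charFun_wf_aux (ρ : ℝ) {Ξ : E → F} {φ : E → ℂ} (h : Stat Ξ φ) (t : E) :
    charFun (spec (wf ρ h)) ((2 * π) • t) = (∫ u, (win ρ u : ℂ) * win ρ (u + t)) * φ t := by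
  rw [charFun_spec, ← integral_mul_const]
  refine integral_congr_ae ?_
  filter_upwards [coeFn_wf ρ h, (measurePreserving_add_right volume t).quasiMeasurePreserving.ae
    (p := fun x => wf ρ h x = (win ρ x : ℂ) • Ξ x) (coeFn_wf ρ h)] with u h1 h2
  rw [h1, h2, inner_smul_left, inner_smul_right, h.corr, Complex.conj_ofReal, mul_assoc]

lemma charFun_wf (ρ : ℝ) {Ξ : E → F} {φ : E → ℂ} (h : Stat Ξ φ) (t : E) :
    charFun (spec (wf ρ h)) ((2 * π) • t) = charFun (gam ρ) ((2 * π) • t) * φ t := by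
  rw [gam, charFun_wf_aux, charFun_wf_aux, mul_one]

lemma isProb_gam {ρ : ℝ} (hρ : 0 < ρ) : IsProbabilityMeasure (gam ρ : Measure E) := by
  have h := charFun_wf_aux ρ (stat_one (E := E)) 0
  rw [smul_zero, charFun_zero, mul_one] at h
  have h2 : (∫ u : E, (win ρ u : ℂ) * win ρ (u + 0)) = ((∫ u : E, win ρ u ^ 2 : ℝ) : ℂ) := by
    rw [← integral_complex_ofReal]; simp [sq]
  rw [h2, integral_win_sq hρ] at h
  exact isProbabilityMeasure_iff_real.2 (by exact_mod_cast h)

lemma mass_wf {ρ : ℝ} (hρ : 0 < ρ) {Ξ : E → F} {φ : E → ℂ} (h : Stat Ξ φ) :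
    (spec (wf ρ h)).real Set.univ ≤ 1 := by
  rw [spec_real_univ]
  refine (norm_sq_le_of_win hρ _ (ε := 1) ?_).trans_eq (one_pow 2)
  filter_upwards [coeFn_wf ρ h] with u hu
  rw [hu, norm_smul, Complex.norm_real]
  exact mul_le_mul_of_nonneg_left (h.bdd u) (norm_nonneg _)

omit [InnerProductSpace ℝ E] [FiniteDimensional ℝ E] in
lemma exists_tail (γ : Measure E) [IsFiniteMeasure γ] {τ : ℝ} (hτ : 0 < τ) :
    ∀ᶠ R : ℝ in atTop, γ.real (ball 0 R)ᶜ ≤ τ := by
  have h := tendsto_measure_iInter_atTop (μ := γ) (s := fun n : ℝ => (ball (0 : E) n)ᶜ)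
    (fun n => measurableSet_ball.compl.nullMeasurableSet)
    (fun a b hab => Set.compl_subset_compl.2 (ball_subset_ball hab)) ⟨0, measure_ne_top _ _⟩
  have h0 : ⋂ n : ℝ, (ball (0 : E) n)ᶜ = ∅ := by
    ext x
    simp only [Set.mem_iInter, Set.mem_compl_iff, mem_ball_zero_iff, not_lt, Set.mem_empty_iff_false,
      iff_false, not_forall, not_le]
    exact ⟨‖x‖ + 1, by linarith⟩
  rw [h0, measure_empty] at h
  have h1 := (ENNReal.tendsto_toReal ENNReal.zero_ne_top).comp h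
  exact (h1.eventually (ge_mem_nhds (by simpa using hτ)))

lemma charFun_map_adj {T T' : E →L[ℝ] E} (hT : ∀ z t, inner ℝ (T' z) t = inner ℝ z (T t))
    (ν : Measure E) (t : E) : charFun (ν.map T') t = charFun ν (T t) := by
  rw [charFun_apply, charFun_apply, integral_map T'.continuous.aemeasurable (by fun_prop)]
  simp_rw [hT]

/-- one step: the spectral measure is almost sub-invariant under the dual map -/
theorem step {κ : Type*} {l : Filter κ} {Ξ : κ → E → F} {φ : κ → E → ℂ}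
    (h : ∀ k, Stat (Ξ k) (φ k)) {T T' : E →L[ℝ] E}
    (hT : ∀ z t, inner ℝ (T' z) t = inner ℝ z (T t))
    (hsh : ∀ ε > 0, ∃ ρ > 0, ∀ᶠ k in l, ∃ (H : E → F) (B : F →L[ℂ] F), ‖B‖ ≤ 1 ∧
      Stat H (fun t => φ k (T t)) ∧ ∀ u, ‖u‖ < ρ → ‖H u - B (Ξ k u)‖ ≤ ε)
    {ε : ℝ} (hε : 0 < ε) : ∀ᶠ R : ℝ in atTop, ∀ᶠ k in l, ∀ S : Set E, MeasurableSet S →
      (spec (wf 1 (h k))).real (T' ⁻¹' S) ≤ (spec (wf 1 (h k))).real (thickening (4 * R) S) + ε := by
  set δ := ε / 10 with hδ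
  have hδ0 : 0 < δ := by positivity
  obtain ⟨ρ, hρ, hk⟩ := hsh (√(δ / (1 + δ⁻¹))) (by positivity)
  have := isProb_gam (E := E) hρ
  have := isProb_gam (E := E) one_pos
  have : IsProbabilityMeasure ((gam 1 : Measure E).map T') :=
    Measure.isProbabilityMeasure_map T'.continuous.aemeasurable
  filter_upwards [exists_tail (gam ρ : Measure E) hδ0, exists_tail (gam 1 : Measure E) hδ0,
    exists_tail ((gam 1 : Measure E).map T') hδ0] with R h1 h2 h3
  filter_upwards [hk] with k ⟨H, B, hB, hH, hu⟩ S hS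
  have hsurj : ∀ t : E, ∃ s : E, t = (2 * π) • s := fun t =>
    ⟨(2 * π)⁻¹ • t, by rw [smul_smul, mul_inv_cancel₀ (by positivity), one_smul]⟩
  set μ := spec (wf 1 (h k)) with hμ
  have hm : μ.real Set.univ ≤ 1 := mass_wf one_pos _
  have e1 := conv_compare (μ₁ := μ.map T') (μ₂ := spec (wf ρ hH)) (γ₁ := (gam 1).map T')
    (γ₂ := gam ρ) (fun t => by
      obtain ⟨s, rfl⟩ := hsurj t
      rw [charFun_map_adj hT, charFun_map_adj hT, map_smul, hμ, charFun_wf, charFun_wf]
      ring)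
    (by rwa [map_measureReal_apply T'.continuous.measurable MeasurableSet.univ])
    (mass_wf hρ _) h3 h1 S
  rw [map_measureReal_apply T'.continuous.measurable hS] at e1
  set S₁ := thickening R (thickening R S)
  have e2 := spec_le B hB (wf ρ hH) (wf ρ (h k)) (S := S₁) isOpen_thickening.measurableSet hδ0
  have e3 := conv_compare (μ₁ := spec (wf ρ (h k))) (μ₂ := μ) (γ₁ := gam ρ)
    (γ₂ := gam 1) (fun t => by
      obtain ⟨s, rfl⟩ := hsurj t
      rw [hμ, charFun_wf, charFun_wf]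
      ring) (mass_wf hρ _) hm h1 h2 S₁
  have e4 : ‖wf ρ hH - B.compLpL 2 volume (wf ρ (h k))‖ ^ 2 ≤ δ / (1 + δ⁻¹) := by
    refine (norm_sq_le_of_win hρ _ (ε := √(δ / (1 + δ⁻¹))) ?_).trans_eq
      (Real.sq_sqrt (by positivity))
    filter_upwards [Lp.coeFn_sub (wf ρ hH) (B.compLpL 2 volume (wf ρ (h k))),
      B.coeFn_compLpL (wf ρ (h k)), coeFn_wf ρ hH, coeFn_wf ρ (h k)] with u a1 a2 a3 a4
    rw [a1, Pi.sub_apply, a2, a3, a4, map_smul, ← smul_sub, norm_smul, Complex.norm_real,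
      Real.norm_eq_abs]
    by_cases hu' : u ∈ ball (0 : E) ρ
    · exact mul_le_mul_of_nonneg_left (hu u (mem_ball_zero_iff.1 hu')) (abs_nonneg _)
    · simp [win, Set.indicator_of_notMem hu']
  have e5 : (1 + δ⁻¹) * ‖wf ρ hH - B.compLpL 2 volume (wf ρ (h k))‖ ^ 2 ≤ δ := by
    refine (mul_le_mul_of_nonneg_left e4 (by positivity)).trans_eq ?_
    field_simp
  have e6 : μ.real (thickening R (thickening R S₁)) ≤ μ.real (thickening (4 * R) S) := by
    refine measureReal_mono ?_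
    rw [show 4 * R = R + (R + (R + R)) by ring]
    refine subset_trans ?_ (thickening_thickening_subset _ _ _)
    refine thickening_subset_of_subset _ (subset_trans ?_ (thickening_thickening_subset _ _ _))
    exact thickening_subset_of_subset _ (thickening_thickening_subset _ _ _)
  have e7 : (spec (wf ρ (h k))).real S₁ ≤ 1 :=
    (measureReal_mono (Set.subset_univ _)).trans (mass_wf hρ _)
  nlinarith

omit [FiniteDimensional ℝ E] in
lemma norm_charFun_sub_le (ν : Measure E) [IsFiniteMeasure ν] (hν : ν.real Set.univ ≤ 1)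
    {A : Set E} (hA : MeasurableSet A) {L : ℝ} (hL0 : 0 ≤ L) (hL : ∀ z, z ∉ A → ‖z‖ ≤ L) (t : E) :
    ‖charFun ν t - charFun ν 0‖ ≤ 2 * ν.real A + L * ‖t‖ := by
  have hi : ∀ s : E, Integrable (fun x : E => Complex.exp ((inner ℝ x s : ℝ) * Complex.I)) ν :=
    fun s => Integrable.of_bound (by fun_prop) 1 (Eventually.of_forall fun x =>
      (Complex.norm_exp_ofReal_mul_I _).le)
  rw [charFun_apply, charFun_apply, ← integral_sub (hi _) (hi _)]
  have hi2 : Integrable (fun x => A.indicator (fun _ => (2 : ℝ)) x + L * ‖t‖) ν :=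
    ((integrable_const _).indicator hA).add (integrable_const _)
  refine (norm_integral_le_of_norm_le hi2 (Eventually.of_forall fun x => ?_)).trans ?_
  · by_cases hx : x ∈ A
    · rw [Set.indicator_of_mem hx]
      refine (norm_sub_le _ _).trans ?_
      rw [Complex.norm_exp_ofReal_mul_I, Complex.norm_exp_ofReal_mul_I]
      have : 0 ≤ L * ‖t‖ := by positivity
      linarith
    · rw [Set.indicator_of_notMem hx, zero_add, inner_zero_right, Complex.ofReal_zero, zero_mul,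
        Complex.exp_zero, mul_comm]
      refine Real.norm_exp_I_mul_ofReal_sub_one_le.trans ((norm_inner_le_norm _ _).trans ?_)
      exact mul_le_mul_of_nonneg_right (hL x hx) (norm_nonneg _)
  · rw [integral_add ((integrable_const _).indicator hA) (integrable_const _),
      integral_indicator_const _ hA, integral_const, smul_eq_mul, smul_eq_mul, mul_comm]
    exact add_le_add le_rfl (mul_le_of_le_one_left (by positivity) hν)

end general

/-- the plane -/
abbrev E2 := EuclideanSpace ℝ (Fin 2)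

/-- the shear `t ↦ t + m tᵢ eⱼ` -/
noncomputable def sh (i j : Fin 2) (m : ℝ) : E2 →L[ℝ] E2 :=
  ContinuousLinearMap.id ℝ E2 +
    (m • EuclideanSpace.proj i : E2 →L[ℝ] ℝ).smulRight (EuclideanSpace.single j 1)

lemma sh_apply (i j : Fin 2) (m : ℝ) (t : E2) (a : Fin 2) :
    sh i j m t a = t a + if a = j then m * t i else 0 := by
  simp [sh]

lemma sh_adj (i j : Fin 2) (m : ℝ) (z t : E2) :
    inner ℝ (sh j i m z) t = inner ℝ z (sh i j m t) := by
  simp [sh, inner_add_left, inner_add_right, inner_smul_left, inner_smul_right,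
    EuclideanSpace.inner_single_left, EuclideanSpace.inner_single_right]
  ring

/-- a truncated cone -/
def cone (i j : Fin 2) (m c Λ : ℝ) : Set E2 := {z | |z i - m * z j| ≤ c * |z j| ∧ Λ < |z j|}

lemma measurableSet_cone (i j : Fin 2) (m c Λ : ℝ) : MeasurableSet (cone i j m c Λ) :=
  (measurableSet_le (f := fun z : E2 => |z i - m * z j|) (g := fun z => c * |z j|) (by fun_prop)
    (by fun_prop)).inter
    (measurableSet_lt (f := fun _ : E2 => Λ) (g := fun z => |z j|) (by fun_prop) (by fun_prop))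

/-- high frequencies -/
def HF (Λ : ℝ) : Set E2 := {z | Λ < |z 0| ∨ Λ < |z 1|}

lemma measurableSet_HF (Λ : ℝ) : MeasurableSet (HF Λ) :=
  (measurableSet_lt (f := fun _ : E2 => Λ) (g := fun z => |z 0|) (by fun_prop) (by fun_prop)).union
    (measurableSet_lt (f := fun _ : E2 => Λ) (g := fun z => |z 1|) (by fun_prop) (by fun_prop))

lemma thick_cone (i j : Fin 2) {m ρ Λ : ℝ} (hm0 : 0 ≤ m) (hm : m ≤ 6) (hΛ : 100 * ρ ≤ Λ) :
    thickening ρ (cone i j m 1 Λ) ⊆ cone i j m (5 / 4) (Λ / 2) := by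
  intro z hz
  obtain ⟨y, ⟨hy1, hy2⟩, hzy⟩ := mem_thickening_iff.1 hz
  rw [dist_eq_norm] at hzy
  have hi : |z i - y i| < ρ := (PiLp.norm_apply_le (z - y) i).trans_lt hzy
  have hj : |z j - y j| < ρ := (PiLp.norm_apply_le (z - y) j).trans_lt hzy
  have h0 : 0 < ρ := (abs_nonneg _).trans_lt hi
  have h1 : |y j| - ρ ≤ |z j| := by
    have := abs_sub_abs_le_abs_sub (y j) (z j)
    rw [abs_sub_comm] at this
    linarith
  refine ⟨?_, by linarith⟩
  have h2 : |z i - m * z j| ≤ |y i - m * y j| + |z i - y i| + m * |z j - y j| := by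
    rw [show z i - m * z j = (y i - m * y j) + (z i - y i) + -(m * (z j - y j)) by ring]
    refine (abs_add_three _ _ _).trans_eq ?_
    rw [abs_neg, abs_mul, abs_of_nonneg hm0]
  have h3 : m * |z j - y j| ≤ 6 * ρ := mul_le_mul hm hj.le (abs_nonneg _) (by norm_num)
  linarith

lemma disjoint_cone (i j : Fin 2) {m m' Λ : ℝ} (hΛ : 0 ≤ Λ) (h : 3 ≤ m' - m) :
    Disjoint (cone i j m (5 / 4) Λ) (cone i j m' (5 / 4) Λ) := by
  rw [Set.disjoint_left]
  rintro z ⟨h1, h2⟩ ⟨h3, -⟩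
  have h4 : |(m' - m) * z j| ≤ |z i - m * z j| + |z i - m' * z j| := by
    rw [show (m' - m) * z j = (z i - m * z j) - (z i - m' * z j) by ring]
    exact abs_sub _ _
  rw [abs_mul, abs_of_nonneg (by linarith : 0 ≤ m' - m)] at h4
  nlinarith [abs_nonneg (z j)]

lemma cone_subset (i j : Fin 2) (m c Λ : ℝ) : cone i j m c Λ ⊆ HF Λ := by
  rintro z ⟨-, h⟩
  fin_cases j
  · exact Or.inl h
  · exact Or.inr h

lemma preimage_cone {i j : Fin 2} (hij : i ≠ j) (m Λ : ℝ) :
    sh j i m ⁻¹' cone i j m 1 Λ = cone i j 0 1 Λ := by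
  ext z
  simp [cone, sh_apply, hij.symm]

lemma HF_subset (Λ : ℝ) : HF Λ ⊆ cone 0 1 0 1 Λ ∪ cone 1 0 0 1 Λ := by
  intro z hz
  simp only [cone, zero_mul, sub_zero, one_mul, Set.mem_union, Set.mem_ofPred_eq]
  rcases le_total |z 0| |z 1| with h | h
  · exact Or.inl ⟨h, hz.elim (fun h' => h'.trans_le h) id⟩
  · exact Or.inr ⟨h, hz.elim id (fun h' => h'.trans_le h)⟩

variable {F : Type*} [NormedAddCommGroup F] [InnerProductSpace ℂ F] [CompleteSpace F]

/-- **Equicontinuity.** -/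
theorem equi {κ : Type*} {l : Filter κ} {Ξ : κ → E2 → F} {φ : κ → E2 → ℂ}
    (h : ∀ k, Stat (Ξ k) (φ k))
    (hsh : ∀ i j : Fin 2, i ≠ j → ∀ m : ℝ, ∀ ε > 0, ∃ ρ > 0, ∀ᶠ k in l,
      ∃ (H : E2 → F) (B : F →L[ℂ] F), ‖B‖ ≤ 1 ∧
      Stat H (fun t => φ k (sh i j m t)) ∧ ∀ u, ‖u‖ < ρ → ‖H u - B (Ξ k u)‖ ≤ ε)
    {ε : ℝ} (hε : 0 < ε) : ∃ δ > 0, ∀ᶠ k in l, ∀ u, ‖u‖ < δ → ‖Ξ k u - Ξ k 0‖ ≤ ε := by
  set μ : κ → Measure E2 := fun k => spec (wf 1 (h k)) with hμ
  have hm : ∀ k, (μ k).real Set.univ ≤ 1 := fun k => mass_wf one_pos _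
  have c1 : ∀ i j : Fin 2, i ≠ j → ∀ η > 0, ∀ᶠ Λ : ℝ in atTop, ∀ᶠ k in l,
      3 * (μ k).real (cone i j 0 1 Λ) ≤ (μ k).real (HF (Λ / 2)) + 3 * η := by
    intro i j hij η hη
    obtain ⟨R, ⟨⟨h0, h3⟩, h6⟩, hR⟩ := ((((step h (sh_adj i j 0) (hsh i j hij 0) hη).and
      (step h (sh_adj i j 3) (hsh i j hij 3) hη)).and
      (step h (sh_adj i j 6) (hsh i j hij 6) hη)).and (eventually_ge_atTop 0)).exists
    filter_upwards [eventually_ge_atTop (100 * (4 * R))] with Λ hΛ
    filter_upwards [h0, h3, h6] with k h0 h3 h6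
    have a0 := h0 _ (measurableSet_cone i j 0 1 Λ)
    have a3 := h3 _ (measurableSet_cone i j 3 1 Λ)
    have a6 := h6 _ (measurableSet_cone i j 6 1 Λ)
    rw [preimage_cone hij] at a0 a3 a6
    have b0 := measureReal_mono (μ := μ k) (thick_cone i j (m := 0) le_rfl (by norm_num) hΛ)
    have b3 := measureReal_mono (μ := μ k) (thick_cone i j (m := 3) (by norm_num) (by norm_num) hΛ)
    have b6 := measureReal_mono (μ := μ k) (thick_cone i j (m := 6) (by norm_num) le_rfl hΛ)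
    have hΛ0 : 0 ≤ Λ / 2 := by linarith
    have u1 := measureReal_union (μ := μ k) (disjoint_cone i j (m := 0) (m' := 3) hΛ0 (by norm_num))
      (measurableSet_cone i j 3 _ _)
    have u2 := measureReal_union (μ := μ k) (Set.disjoint_union_left.2
      ⟨disjoint_cone i j (m := 0) (m' := 6) hΛ0 (by norm_num),
        disjoint_cone i j (m := 3) (m' := 6) hΛ0 (by norm_num)⟩) (measurableSet_cone i j 6 _ _)
    have u3 := measureReal_mono (μ := μ k) (Set.union_subset (Set.union_subset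
      (cone_subset i j 0 (5 / 4) (Λ / 2)) (cone_subset i j 3 (5 / 4) (Λ / 2)))
      (cone_subset i j 6 (5 / 4) (Λ / 2)))
    simp only [hμ] at *
    linarith
  have c2 : ∀ n : ℕ, ∃ Λ ≥ 0, ∀ᶠ k in l, (μ k).real (HF Λ) ≤ (3 / 4) ^ n := by
    intro n
    induction n with
    | zero => exact ⟨0, le_rfl, Eventually.of_forall fun k => by
        simpa using (measureReal_mono (Set.subset_univ _)).trans (hm k)⟩
    | succ n ih =>
      obtain ⟨Λ₀, hΛ₀, hk⟩ := ih
      have hη : (0 : ℝ) < (3 / 4) ^ n / 24 := by positivity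
      obtain ⟨Λ, ⟨h1, h2⟩, h3⟩ := (((c1 0 1 (by decide) _ hη).and (c1 1 0 (by decide) _ hη)).and
        (eventually_ge_atTop (2 * Λ₀))).exists
      refine ⟨Λ, by linarith, ?_⟩
      filter_upwards [hk, h1, h2] with k hk h1 h2
      have a1 := (measureReal_mono (μ := μ k) (HF_subset Λ)).trans (measureReal_union_le _ _)
      have a2 : (μ k).real (HF (Λ / 2)) ≤ (μ k).real (HF Λ₀) :=
        measureReal_mono fun z hz => hz.imp (fun h' => by linarith) (fun h' => by linarith)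
      rw [pow_succ]
      linarith
  obtain ⟨n, hn⟩ := exists_pow_lt_of_lt_one (show 0 < ε ^ 2 / 16 by positivity)
    (show (3 / 4 : ℝ) < 1 by norm_num)
  obtain ⟨Λ, hΛ, hk⟩ := c2 n
  have := isProb_gam (E := E2) one_pos
  have hc : Continuous fun u : E2 => ‖charFun (gam 1 : Measure E2) ((2 * π) • u) - 1‖
      + 2 * Λ * ‖(2 * π) • u‖ := by
    have := continuous_charFun (μ := (gam 1 : Measure E2))
    fun_prop
  have hc0 := hc.continuousAt (x := 0) |>.eventually (gt_mem_nhds (a := ε ^ 2 / 4) (by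
    simp only [smul_zero, charFun_zero, probReal_univ]; simp; positivity))
  obtain ⟨δ, hδ, hδ'⟩ := Metric.eventually_nhds_iff.1 hc0
  refine ⟨δ, hδ, ?_⟩
  filter_upwards [hk] with k hk u hu
  have a1 := hδ' (y := u) (by simpa using hu)
  have a2 := norm_charFun_sub_le (μ k) (hm k) (measurableSet_HF Λ) (L := 2 * Λ) (by linarith)
    (fun z hz => by
      simp only [HF, Set.mem_ofPred_eq, not_or, not_lt] at hz
      refine (pow_le_pow_iff_left₀ (norm_nonneg _) (by linarith) two_ne_zero).1 ?_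
      rw [EuclideanSpace.real_norm_sq_eq, Fin.sum_univ_two, ← sq_abs (z 0), ← sq_abs (z 1)]
      nlinarith [abs_nonneg (z 0), abs_nonneg (z 1)]) ((2 * π) • u)
  have a3 := charFun_wf 1 (h k) u
  have a4 := charFun_wf 1 (h k) 0
  rw [smul_zero, charFun_zero (gam 1), probReal_univ, Complex.ofReal_one, one_mul] at a4
  have a5 : ‖φ k u‖ ≤ 1 := by
    rw [← (h k).corr 0 u]
    exact (norm_inner_le_norm _ _).trans (mul_le_one₀ ((h k).bdd _) (norm_nonneg _) ((h k).bdd _))
  have a6 : ‖φ k 0 - φ k u‖ ≤ ε ^ 2 / 2 := by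
    have e : φ k 0 - φ k u = -(charFun (μ k) ((2 * π) • u) - charFun (μ k) 0)
        + (charFun (gam 1 : Measure E2) ((2 * π) • u) - 1) * φ k u := by
      simp only [hμ]; rw [a3, a4]; ring
    rw [e]
    refine (norm_add_le _ _).trans ?_
    rw [norm_neg, norm_mul]
    have := mul_le_of_le_one_right
      (norm_nonneg (charFun (gam 1 : Measure E2) ((2 * π) • u) - 1)) a5
    linarith [sq_nonneg ε]
  have a7 : ‖Ξ k u - Ξ k 0‖ ^ 2 = 2 * (φ k 0 - φ k u).re := by
    have b1 := (h k).corr 0 0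
    have b2 := (h k).corr u 0
    have b3 := (h k).corr 0 u
    rw [add_zero, inner_self_eq_norm_sq_to_K] at b1 b2
    rw [zero_add] at b3
    have b4 : ‖Ξ k 0‖ ^ 2 = (φ k 0).re := by rw [← b1]; norm_cast
    have b5 : ‖Ξ k u‖ ^ 2 = (φ k 0).re := by rw [← b2]; norm_cast
    rw [norm_sub_rev, @norm_sub_sq ℂ, b3, b4, b5, Complex.sub_re]
    simp only [RCLike.re_to_complex]
    ring
  refine (pow_le_pow_iff_left₀ (norm_nonneg _) hε.le two_ne_zero).1 ?_
  have := (Complex.re_le_norm _).trans a6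
  linarith

end Crest.Agent.N111.Eng
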