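import Mathlib

/-!
# Row 111, engine I: spectral measure of an `L²` function with values in a Hilbert space.

`spec Ψ = ‖𝓕 Ψ‖² dz`.  Its characteristic function is the autocorrelation of `Ψ`.
-/

set_option autoImplicit false

namespace Crest.Agent.N111.Eng

open MeasureTheory SchwartzMap FourierTransform Filter Topology
open scoped ENNReal NNReal Real

variable {E : Type*} [NormedAddCommGroup E] [InnerProductSpace ℝ E] [FiniteDimensional ℝ E]
  [MeasurableSpace E] [BorelSpace E]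
variable {F : Type*} [NormedAddCommGroup F] [InnerProductSpace ℂ F] [CompleteSpace F]

variable (E F) in
/-- `L²(E, F)` -/
noncomputable abbrev L2 := Lp F 2 (volume : Measure E)

/-- the spectral measure `‖𝓕 Ψ z‖² dz` -/
noncomputable def spec (Ψ : L2 E F) : Measure E :=
  volume.withDensity fun z => ‖(𝓕 Ψ : L2 E F) z‖ₑ ^ 2

omit [InnerProductSpace ℂ F] [CompleteSpace F] in
lemma lintegral_enorm_sq {α : Type*} [MeasurableSpace α] {ν : Measure α} (Ψ : Lp F 2 ν) :
    ∫⁻ z, ‖Ψ z‖ₑ ^ 2 ∂ν = ENNReal.ofReal (‖Ψ‖ ^ 2) := by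
  have h := eLpNorm_nnreal_pow_eq_lintegral (f := (Ψ : α → F)) (μ := ν) (p := 2) two_ne_zero
  rw [ENNReal.ofReal_pow (norm_nonneg _), Lp.norm_def, ENNReal.ofReal_toReal (Lp.eLpNorm_ne_top Ψ)]
  simp only [ENNReal.coe_ofNat, NNReal.coe_ofNat, ENNReal.rpow_ofNat] at h
  exact h.symm

lemma spec_univ (Ψ : L2 E F) : spec Ψ Set.univ = ENNReal.ofReal (‖Ψ‖ ^ 2) := by
  rw [spec, withDensity_apply _ MeasurableSet.univ, Measure.restrict_univ, lintegral_enorm_sq,
    Lp.norm_fourier_eq]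

instance (Ψ : L2 E F) : IsFiniteMeasure (spec Ψ) :=
  ⟨by rw [spec_univ]; exact ENNReal.ofReal_lt_top⟩

lemma spec_real_univ (Ψ : L2 E F) : (spec Ψ).real Set.univ = ‖Ψ‖ ^ 2 := by
  rw [Measure.real, spec_univ, ENNReal.toReal_ofReal (by positivity)]

/-- translation `Ψ ↦ Ψ (· + t)` -/
noncomputable def trL (t : E) : L2 E F →ₗᵢ[ℂ] L2 E F :=
  Lp.compMeasurePreservingₗᵢ ℂ (fun u => u + t) (measurePreserving_add_right volume t)

omit [CompleteSpace F] in
lemma coeFn_trL (t : E) (Ψ : L2 E F) : trL t Ψ =ᵐ[volume] fun u => Ψ (u + t) :=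
  Lp.coeFn_compMeasurePreserving Ψ (measurePreserving_add_right volume t)

/-- the character `z ↦ exp (2πi ⟪z,t⟫)` -/
noncomputable def ch (t z : E) : ℂ := Complex.exp ((inner ℝ z ((2 * π) • t) : ℝ) * Complex.I)

omit [FiniteDimensional ℝ E] [MeasurableSpace E] [BorelSpace E] in
lemma continuous_ch (t : E) : Continuous (ch t) := by unfold ch; fun_prop

omit [FiniteDimensional ℝ E] [MeasurableSpace E] [BorelSpace E] in
lemma norm_ch (t z : E) : ‖ch t z‖ = 1 := Complex.norm_exp_ofReal_mul_I _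

lemma memLp_ch (t : E) : MemLp (ch t) ∞ volume :=
  memLp_top_of_bound (continuous_ch t).aestronglyMeasurable 1
    (Eventually.of_forall fun z => (norm_ch t z).le)

/-- multiplication by the character -/
noncomputable def modL (t : E) : L2 E F →L[ℂ] L2 E F :=
  (ContinuousLinearMap.lsmul ℂ ℂ : ℂ →L[ℂ] F →L[ℂ] F).holderL volume ∞ 2 2 (memLp_ch t).toLp

omit [CompleteSpace F] in
lemma coeFn_modL (t : E) (Ψ : L2 E F) : modL t Ψ =ᵐ[volume] fun z => ch t z • Ψ z := by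
  have h := (ContinuousLinearMap.lsmul ℂ ℂ : ℂ →L[ℂ] F →L[ℂ] F).coeFn_holder (r := 2)
    (memLp_ch t).toLp Ψ
  filter_upwards [h, (memLp_ch t).coeFn_toLp] with z h1 h2
  rw [← h2]
  exact h1

lemma fourier_trL (t : E) (Ψ : L2 E F) : 𝓕 (trL t Ψ) = modL t (𝓕 Ψ) := by
  refine DenseRange.induction_on (p := fun Ψ : L2 E F => 𝓕 (trL t Ψ) = modL t (𝓕 Ψ))
    (SchwartzMap.denseRange_toLpCLM (F := F) (p := 2) (μ := (volume : Measure E))
      ENNReal.ofNat_ne_top) Ψ ?_ fun f => ?_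
  · exact isClosed_eq ((Lp.fourierTransformₗᵢ E F).continuous.comp (trL t).continuous)
      ((modL t).continuous.comp (Lp.fourierTransformₗᵢ E F).continuous)
  · have h1 : trL t (f.toLp 2 volume) = (f.compSubConstCLM ℂ (-t)).toLp 2 volume := by
      ext1
      filter_upwards [coeFn_trL t (f.toLp 2 volume), (f.compSubConstCLM ℂ (-t)).coeFn_toLp 2 volume,
        (measurePreserving_add_right volume t).quasiMeasurePreserving.ae
          (p := fun x => f.toLp 2 volume x = f x) (f.coeFn_toLp 2 volume)]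
        with u h1 h2 h3
      rw [h1, h2, h3]; simp
    simp only [toLpCLM_apply]
    rw [h1, toLp_fourier_eq, toLp_fourier_eq]
    ext1
    filter_upwards [coeFn_modL t ((𝓕 f).toLp 2 volume), (𝓕 f).coeFn_toLp 2 volume,
      (𝓕 (f.compSubConstCLM ℂ (-t))).coeFn_toLp 2 volume] with z h1 h2 h3
    rw [h1, h2, h3]
    have h4 := congrFun (VectorFourier.fourierIntegral_comp_add_right Real.fourierChar volume
      (innerₗ E) (f : E → F) t) z
    have h5 : ((f.compSubConstCLM ℂ (-t) : 𝓢(E, F)) : E → F) = (f : E → F) ∘ fun v => v + t := by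
      ext v; simp
    rw [fourier_coe, fourier_coe, h5]
    refine h4.trans ?_
    rw [Circle.smul_def, Real.fourierChar_apply, ch, real_inner_smul_right, real_inner_comm]
    rfl

lemma fourier_compLp (B : F →L[ℂ] F) (Ψ : L2 E F) :
    𝓕 (B.compLpL 2 volume Ψ) = B.compLpL 2 volume (𝓕 Ψ) := by
  refine DenseRange.induction_on
    (p := fun Ψ : L2 E F => 𝓕 (B.compLpL 2 volume Ψ) = B.compLpL 2 volume (𝓕 Ψ))
    (SchwartzMap.denseRange_toLpCLM (F := F) (p := 2) (μ := (volume : Measure E))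
      ENNReal.ofNat_ne_top) Ψ ?_ fun f => ?_
  · exact isClosed_eq ((Lp.fourierTransformₗᵢ E F).continuous.comp (B.compLpL 2 volume).continuous)
      ((B.compLpL 2 volume).continuous.comp (Lp.fourierTransformₗᵢ E F).continuous)
  · have h1 : ∀ g : 𝓢(E, F), B.compLpL 2 volume (g.toLp 2 volume) = (g.postcompCLM B).toLp 2 volume := by
      intro g
      ext1
      filter_upwards [B.coeFn_compLpL (g.toLp 2 volume), (g.postcompCLM B).coeFn_toLp 2 volume, g.coeFn_toLp 2 volume]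
        with u h1 h2 h3
      rw [h1, h2, h3]; simp
    simp only [toLpCLM_apply]
    rw [h1, toLp_fourier_eq, toLp_fourier_eq, h1]
    congr 1
    ext z
    rw [postcompCLM_apply, fourier_coe, fourier_coe, Real.fourier_eq, Real.fourier_eq,
      ← B.integral_comp_comm ((Real.fourierIntegral_convergent_iff z).2 f.integrable)]
    simp [Circle.smul_def]

theorem charFun_spec (Ψ : L2 E F) (t : E) :
    charFun (spec Ψ) ((2 * π) • t) = ∫ u, inner ℂ (Ψ u) (Ψ (u + t)) := by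
  have h1 : ∫ u, inner ℂ (Ψ u) (Ψ (u + t)) = inner ℂ Ψ (trL t Ψ) := by
    rw [L2.inner_def]
    refine integral_congr_ae ?_
    filter_upwards [coeFn_trL t Ψ] with u hu
    rw [hu]
  rw [h1, ← Lp.inner_fourier_eq, fourier_trL, L2.inner_def, charFun_apply, spec]
  set Φ : L2 E F := 𝓕 Ψ
  have hm : AEMeasurable (fun z => ‖Φ z‖₊ ^ 2) volume :=
    (Lp.aestronglyMeasurable Φ).nnnorm.aemeasurable.pow_const 2
  have h2 := integral_withDensity_eq_integral_smul₀ hm (ch t)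
  simp only [ENNReal.coe_pow] at h2
  refine h2.trans (integral_congr_ae ?_)
  filter_upwards [coeFn_modL t Φ] with z hz
  rw [hz, inner_smul_right, inner_self_eq_norm_sq_to_K, NNReal.smul_def]
  simp [mul_comm]

lemma spec_real_apply (Ψ : L2 E F) {S : Set E} (hS : MeasurableSet S) :
    (spec Ψ).real S = ∫ z in S, ‖(𝓕 Ψ : L2 E F) z‖ ^ 2 := by
  set Φ : L2 E F := 𝓕 Ψ
  rw [integral_eq_lintegral_of_nonneg_ae (f := fun z => ‖Φ z‖ ^ 2)
    (Eventually.of_forall fun z => by positivity)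
    ((Lp.aestronglyMeasurable Φ).norm.pow 2).restrict, Measure.real, spec, withDensity_apply _ hS]
  congr 2
  ext z
  rw [ENNReal.ofReal_pow (norm_nonneg _), ofReal_norm]

omit [InnerProductSpace ℂ F] [CompleteSpace F] in
lemma integrable_norm_sq {α : Type*} [MeasurableSpace α] {ν : Measure α} (Φ : Lp F 2 ν) :
    Integrable (fun z => ‖Φ z‖ ^ 2) ν :=
  (memLp_two_iff_integrable_sq_norm (Lp.aestronglyMeasurable Φ)).1 (Lp.memLp Φ)

/-- domination of spectral measures up to an `L²` error -/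
theorem spec_le (B : F →L[ℂ] F) (hB : ‖B‖ ≤ 1) (Ψ₁ Ψ₂ : L2 E F) {S : Set E}
    (hS : MeasurableSet S) {δ : ℝ} (hδ : 0 < δ) :
    (spec Ψ₁).real S ≤ (1 + δ) * (spec Ψ₂).real S
      + (1 + δ⁻¹) * ‖Ψ₁ - B.compLpL 2 volume Ψ₂‖ ^ 2 := by
  set R := Ψ₁ - B.compLpL 2 volume Ψ₂ with hR
  have h1 : (𝓕 Ψ₁ : L2 E F) = B.compLpL 2 volume (𝓕 Ψ₂) + 𝓕 R := by
    rw [← fourier_compLp, ← FourierAdd.fourier_add, hR, add_sub_cancel]
  have h2 : (spec R).real S ≤ ‖R‖ ^ 2 := by
    rw [← spec_real_univ]; exact measureReal_mono (Set.subset_univ _)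
  refine le_trans ?_ (add_le_add le_rfl (mul_le_mul_of_nonneg_left h2 (by positivity)))
  rw [spec_real_apply _ hS, spec_real_apply _ hS, spec_real_apply _ hS, ← integral_const_mul,
    ← integral_const_mul, ← integral_add
      ((integrable_norm_sq _).const_mul _).restrict ((integrable_norm_sq _).const_mul _).restrict]
  refine integral_mono_ae (integrable_norm_sq _).restrict
    (((integrable_norm_sq _).const_mul _).add ((integrable_norm_sq _).const_mul _)).restrict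
    (ae_restrict_of_ae ?_)
  filter_upwards [Lp.coeFn_add (B.compLpL 2 volume (𝓕 Ψ₂)) (𝓕 R),
    B.coeFn_compLpL (𝓕 Ψ₂ : L2 E F)] with z hz hz'
  rw [h1, hz, Pi.add_apply, hz']
  set a := (𝓕 Ψ₂ : L2 E F) z
  set b := (𝓕 R : L2 E F) z
  have h3 : ‖B a + b‖ ≤ ‖a‖ + ‖b‖ :=
    (norm_add_le _ _).trans (add_le_add ((B.le_of_opNorm_le hB a).trans_eq (one_mul _)) le_rfl)
  have h4 : (‖a‖ + ‖b‖) ^ 2 ≤ (1 + δ) * ‖a‖ ^ 2 + (1 + δ⁻¹) * ‖b‖ ^ 2 := by
    have h5 : 0 ≤ δ⁻¹ * (δ * ‖a‖ - ‖b‖) ^ 2 := by positivity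
    have h6 : δ⁻¹ * (δ * ‖a‖ - ‖b‖) ^ 2 = δ * ‖a‖ ^ 2 - 2 * ‖a‖ * ‖b‖ + δ⁻¹ * ‖b‖ ^ 2 := by
      field_simp; ring
    nlinarith
  exact (pow_le_pow_left₀ (norm_nonneg _) h3 2).trans h4

/-- comparison of two measures with a common smoothing -/
theorem conv_compare {μ₁ μ₂ γ₁ γ₂ : Measure E} [IsFiniteMeasure μ₁] [IsFiniteMeasure μ₂]
    [IsProbabilityMeasure γ₁] [IsProbabilityMeasure γ₂]
    (h : ∀ t, charFun μ₁ t * charFun γ₂ t = charFun μ₂ t * charFun γ₁ t)
    (h₁ : μ₁.real Set.univ ≤ 1) (h₂ : μ₂.real Set.univ ≤ 1) {R τ : ℝ}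
    (hγ₁ : γ₁.real (Metric.ball 0 R)ᶜ ≤ τ) (hγ₂ : γ₂.real (Metric.ball 0 R)ᶜ ≤ τ) (S : Set E) :
    μ₁.real S ≤ μ₂.real (Metric.thickening R (Metric.thickening R S)) + 2 * τ := by
  have hc : μ₁ ∗ γ₂ = μ₂ ∗ γ₁ := Measure.ext_of_charFun (by
    ext t; rw [charFun_conv, charFun_conv, h])
  set S' := Metric.thickening R S
  set S'' := Metric.thickening R S'
  have hS' : MeasurableSet S' := Metric.isOpen_thickening.measurableSet
  have hadd : Measurable fun p : E × E => p.1 + p.2 := by fun_prop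
  have hτ : 0 ≤ τ := measureReal_nonneg.trans hγ₁
  have e1 : μ₁.real S * γ₂.real (Metric.ball 0 R) ≤ (μ₁ ∗ γ₂).real S' := by
    rw [← measureReal_prod_prod, Measure.conv, map_measureReal_apply hadd hS']
    refine measureReal_mono ?_
    rintro ⟨x, y⟩ ⟨hx, hy⟩
    refine Metric.mem_thickening_iff.2 ⟨x, hx, ?_⟩
    simpa [dist_eq_norm] using hy
  have e2 : (μ₂ ∗ γ₁).real S' ≤ μ₂.real S'' * γ₁.real Set.univ
      + μ₂.real Set.univ * γ₁.real (Metric.ball 0 R)ᶜ := by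
    rw [← measureReal_prod_prod, ← measureReal_prod_prod, Measure.conv,
      map_measureReal_apply hadd hS']
    refine le_trans (measureReal_mono ?_) (measureReal_union_le _ _)
    rintro ⟨x, y⟩ hxy
    by_cases hy : y ∈ Metric.ball (0 : E) R
    · refine Or.inl ⟨Metric.mem_thickening_iff.2 ⟨x + y, hxy, ?_⟩, trivial⟩
      simpa [dist_eq_norm] using hy
    · exact Or.inr ⟨trivial, hy⟩
  have e3 : γ₂.real (Metric.ball 0 R) = 1 - γ₂.real (Metric.ball 0 R)ᶜ := by
    rw [probReal_compl_eq_one_sub Metric.isOpen_ball.measurableSet]; ring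
  have e4 : μ₁.real S ≤ 1 := (measureReal_mono (Set.subset_univ _)).trans h₁
  rw [hc, e3] at e1
  rw [probReal_univ, mul_one] at e2
  have e5 : μ₂.real Set.univ * γ₁.real (Metric.ball 0 R)ᶜ ≤ 1 * τ :=
    mul_le_mul h₂ hγ₁ measureReal_nonneg zero_le_one
  have e6 : μ₁.real S * γ₂.real (Metric.ball 0 R)ᶜ ≤ 1 * τ :=
    mul_le_mul e4 hγ₂ measureReal_nonneg zero_le_one
  nlinarith

end Crest.Agent.N111.Eng
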